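import Mathlib
import Vale.Agent.P237.Frusta.Class

/-!
Petty's projection-volume inequality, strict, for bodies built from planar bodies and segments by
affine maps, products and frusta.
-/

namespace Vale.Agent.Results.P237.IteratedFrusta

open MeasureTheory Set Vale.Agent.P237 Vale.Agent.P237.Frusta
open scoped ENNReal

theorem volume_ball_eq (m : ℕ) (hm : 1 ≤ m) :
    unitBallVolume m = ENNReal.ofReal (kappa m) := by
  haveI : Nonempty (Fin m) := ⟨⟨0, hm⟩⟩
  rw [unitBallVolume, EuclideanSpace.volume_closedBall, Fintype.card_fin, ENNReal.ofReal_one,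
    one_pow, one_mul]
  rfl

theorem result :
    ∀ (n : ℕ) (K : Set (Fin n → ℝ)), 3 ≤ n → IsBuilt n K → StrictPetty n (euclidean K) := by
  intro n K hn hK
  obtain ⟨-, hG⟩ := hK.good
  have h : 2 ^ n * volume K ^ (n - 1) ≤ volume (projBody (euclidean K)) :=
    hG.bound.trans ((volume_euclidean (Pol K)).ge.trans (measure_mono (pol_subset_projBody hG)))
  rw [StrictPetty, volume_ball_eq _ (by omega), volume_ball_eq _ (by omega), volume_euclidean,
    ← ENNReal.ofReal_pow (kappa_pos _).le, ← ENNReal.ofReal_pow (kappa_pos _).le]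
  refine lt_of_lt_of_le ?_ (mul_le_mul_right h _)
  rw [← mul_assoc]
  refine ENNReal.mul_lt_mul_left (pow_ne_zero _ hG.pos) (ENNReal.pow_ne_top hG.ne_top) ?_
  rw [show (2 : ℝ≥0∞) = ENNReal.ofReal 2 by simp, ← ENNReal.ofReal_pow (by norm_num),
    ← ENNReal.ofReal_mul (pow_nonneg (kappa_pos _).le _)]
  refine (ENNReal.ofReal_lt_ofReal_iff (mul_pos (pow_pos (kappa_pos _) _) (by positivity))).mpr ?_
  rw [mul_comm (kappa n ^ (n - 2))]
  exact ball_bound hn

end Vale.Agent.Results.P237.IteratedFrusta
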