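import Vale.Agent.P237.Quant.FullAssembly
import Vale.Agent.P237.Full.ProjProj

/-!
Petty's projection-volume conjecture: for every dimension at least three and every convex body,
the inequality, with equality exactly for ellipsoids.
-/

namespace Vale.Agent.Results.P237.PettyConjecture

open MeasureTheory Set Metric
open Vale.Agent.P237
open scoped ENNReal RealInnerProductSpace

/-- An affine image of the closed unit ball under an invertible linear map and a translation. -/
def IsEllipsoid {n : ℕ} (K : Set (EuclideanSpace ℝ (Fin n))) : Prop :=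
  ∃ (a : EuclideanSpace ℝ (Fin n))
    (T : EuclideanSpace ℝ (Fin n) ≃L[ℝ] EuclideanSpace ℝ (Fin n)),
    K = (fun x => x + a) '' (T '' closedBall 0 1)

/-- For every `n ≥ 3` and every convex body `K` of `n`-space: the support function of `projBody K`
at a unit vector is the volume of the shadow of `K`, and
`κ_(n-1) ^ n |K| ^ (n-1) ≤ κ_n ^ (n-2) |Π K|`, with equality if and only if `K` is an
ellipsoid. -/
theorem result (n : ℕ) (h3 : 3 ≤ n) (K : Set (EuclideanSpace ℝ (Fin n)))
    (hK : Convex ℝ K) (cK : IsCompact K) (iK : (interior K).Nonempty) :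
    (∀ u : EuclideanSpace ℝ (Fin n), ‖u‖ = 1 →
        IsGreatest ((fun x => ⟪x, u⟫) '' projBody K) (shadow K u).toReal) ∧
      unitBallVolume (n - 1) ^ n * volume K ^ (n - 1) ≤
        unitBallVolume n ^ (n - 2) * volume (projBody K) ∧
      (unitBallVolume (n - 1) ^ n * volume K ^ (n - 1) =
          unitBallVolume n ^ (n - 2) * volume (projBody K) ↔ IsEllipsoid K) := by
  refine ⟨fun u hu => ⟨?_, ?_⟩, Quant.petty_all h3 K hK cK iK⟩
  · obtain ⟨x, hx, e⟩ := Full.exists_inner_eq_gain hK cK hu
    exact ⟨x, hx, e.trans (Full.gain_unit hK cK hu)⟩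
  · rintro _ ⟨x, hx, rfl⟩
    exact hx u hu

end Vale.Agent.Results.P237.PettyConjecture
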