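import Vale.Agent.P237.Quant.ThirteenAssembly

/-!
Petty's projection-volume conjecture in dimensions three to thirteen: the inequality for every
convex body, with equality exactly for ellipsoids.
-/

namespace Vale.Agent.Results.P237.PettyUpToThirteen

open MeasureTheory Set Metric
open Vale.Agent.P237
open scoped ENNReal

/-- An affine image of the closed unit ball under an invertible linear map and a translation. -/
def IsEllipsoid {n : ℕ} (K : Set (EuclideanSpace ℝ (Fin n))) : Prop :=
  ∃ (a : EuclideanSpace ℝ (Fin n))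
    (T : EuclideanSpace ℝ (Fin n) ≃L[ℝ] EuclideanSpace ℝ (Fin n)),
    K = (fun x => x + a) '' (T '' closedBall 0 1)

/-- For `3 ≤ n ≤ 13` and every convex body `K` of `n`-space,
`κ_(n-1) ^ n |K| ^ (n-1) ≤ κ_n ^ (n-2) |Π K|`, with equality if and only if `K` is an
ellipsoid. -/
theorem result (n : ℕ) (h3 : 3 ≤ n) (h13 : n ≤ 13) (K : Set (EuclideanSpace ℝ (Fin n)))
    (hK : Convex ℝ K) (cK : IsCompact K) (iK : (interior K).Nonempty) :
    unitBallVolume (n - 1) ^ n * volume K ^ (n - 1) ≤
        unitBallVolume n ^ (n - 2) * volume (projBody K) ∧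
      (unitBallVolume (n - 1) ^ n * volume K ^ (n - 1) =
          unitBallVolume n ^ (n - 2) * volume (projBody K) ↔ IsEllipsoid K) :=
  Quant.petty_thirteen h3 h13 K hK cK iK

end Vale.Agent.Results.P237.PettyUpToThirteen
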