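import Vale.Agent.P237.Asym.Final
import Vale.Agent.P237.Asym.Main

/-!
Petty's projection-volume inequality, strictly and with the sharp constant, for polytopes with at
most exponentially many facets in high dimension.
-/

namespace Vale.Agent.Results.P237.PolytopePetty

open MeasureTheory Set Vale.Agent.P237
open scoped ENNReal RealInnerProductSpace

/-- For every real `c` and large `n`, Petty's inequality holds strictly for every body cut out by
at most `exp (c n)` halfspaces. -/
theorem result :
    ∀ c : ℝ, ∃ n₀ : ℕ, ∀ n : ℕ, n₀ ≤ n → ∀ N : ℕ, (N : ℝ) ≤ Real.exp (c * n) →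
      ∀ (u : Fin N → EuclideanSpace ℝ (Fin n)) (h : Fin N → ℝ),
        IsCompact {x | ∀ i, ⟪u i, x⟫ ≤ h i} → (interior {x | ∀ i, ⟪u i, x⟫ ≤ h i}).Nonempty →
          StrictPetty n {x | ∀ i, ⟪u i, x⟫ ≤ h i} :=
  fun c => Asym.petty_facets (fun _ h => Asym.zono_test_body h) c

end Vale.Agent.Results.P237.PolytopePetty
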